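import Vale.Agent.P049.TS.R902.A4core
import Vale.Agent.P049.TS.Rate3.RC12
import Vale.Agent.P049.TS.Asm.EnvC

/-!
**The rate of `A4c`** (`T₄` in phase IIIa).
-/

set_option linter.unusedSectionVars false
set_option exponentiation.threshold 3000

namespace Vale.Agent.P049.TS.R902

open Matrix Finset Vale.Agent.P049.TS.Asm

variable {n d k : ℕ}
variable {ι : Type*} [Fintype ι] [DecidableEq ι]
variable {F : Finset ι} {Zp Zm Z : Matrix ι ι ℝ} {forb : ι → ι → Prop} {ε : ℝ}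

theorem le_mul_of_one_le {c y : ℝ} (hc : 1 ≤ c) (hy : 0 ≤ y) : y ≤ c * y := by
  calc y = 1 * y := (one_mul y).symm
    _ ≤ c * y := mul_le_mul_of_nonneg_right hc hy

theorem abs_eps_mul (hε : ε = 1 ∨ ε = -1) (x : ℝ) : |x| = |ε * x| := by
  rw [abs_mul]
  rcases hε with rfl | rfl <;> norm_num

/-- `|T₁| ≤ (5d²+1) σ^384` -/
theorem T1_abs (hσ : 2000 ≤ sR n) (hN : 0 < Nk n d k) (hε : ε = 1 ∨ ε = -1)
    (h : OneC n d k ε F Z) :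
    ε * Z.trace ≤ 0 ∧ |Z.trace| ≤ (5 * (d : ℝ) ^ 2 + 1) * (sR n : ℝ) ^ 384 := by
  have hrho := rhoC_pos hσ hN
  have t1 : ε * Z.trace ≤ 0 := by linarith [h.T1_le]
  refine ⟨t1, ?_⟩
  have h3 := h.T1_ge
  rw [abs_eps_mul hε, abs_of_nonpos t1]
  linarith

theorem aux_T3 {d y z N : ℝ} (hd : 3 ≤ d) (h1 : N ≤ z) (h2 : z ≤ y) (h3 : 1 ≤ y) :
    N + 1 ≤ (3 * d ^ 2 + 1) * y := by nlinarith

/-- `|T₃| ≤ (3d²+1) σ^1000` -/
theorem T3_abs (hd : 3 ≤ d) (hσ : 2000 ≤ sR n) (hk2 : k2 n d ≤ k) (hε : ε = 1 ∨ ε = -1)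
    (h : OneC n d k ε F Z) :
    |(Z ^ 3).trace| ≤ (3 * (d : ℝ) ^ 2 + 1) * (sR n : ℝ) ^ 1000 := by
  obtain ⟨hm, hm1, -⟩ := mu_facts hd
  have hσ1 := sR_one hσ
  have h3 := h.sg.trace_odd 0
  norm_num at h3
  have h4 : 0 ≤ (Z ^ 2).trace := by linarith [h.T2_ge]
  have h5 : (√((d : ℝ) - 1))⁻¹ * (Z ^ 2).trace ≤ 1 * (Z ^ 2).trace :=
    mul_le_mul_of_nonneg_right hm1.le h4
  have h6 : -1 ≤ ε := by rcases hε with rfl | rfl <;> norm_num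
  have h7 : Nk n d k + 1 ≤ (3 * (d : ℝ) ^ 2 + 1) * (sR n : ℝ) ^ 1000 :=
    aux_T3 (by exact_mod_cast hd) (Nk_le2 hk2) (pow_le_pow_right₀ hσ1 (by norm_num))
      (one_le_pow₀ hσ1)
  rw [abs_eps_mul hε, abs_le]
  refine ⟨?_, h.T3_le⟩
  have h8 := h.T2_le
  linarith

/-- `T₄ ≤ σ^2004 / N` -/
theorem T4_Em (hσ : 2000 ≤ sR n) (hN : 0 < Nk n d k) (h : OneC n d k ε F Z) :
    (Z ^ 4).trace ≤ Asm.Em (LL n) (XX n d k) 680 699 5296 5220 := by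
  have g1 := h.T4r
  have e2 : (sR n : ℝ) ^ 2004 = Asm.Em (LL n) (XX n d k) 680 699 5296 5220 *
      Asm.Em (LL n) (XX n d k) 680 699 2720 2796 := by
    rw [sR_pow_Em hσ (X := XX n d k) (xl := 680) (xh := 699) (by norm_num) 2004, Em_mul]
    norm_num
  rw [e2, ← Nk_Em hN] at g1
  exact le_of_mul_le_mul_right g1 hN

/-- **rate of `A4c`** for one sign -/
theorem rate_A4_one (hd : 3 ≤ d) (hσ : 2000 ≤ sR n) (hk2 : k2 n d ≤ k) (hk : k < k3 n d)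
    (hcard : (F.card : ℝ) = Nk n d k) (hε : ε = 1 ∨ ε = -1) (h : OneC n d k ε F Z)
    {A : Finset (ι × ι)} (hA : A ⊆ F ×ˢ F) (hadm : ∀ p ∈ A, p.1 ≠ p.2 ∧ PairOK Z p.1 p.2)
    (hE : (((F ×ˢ F) \ A).card : ℝ) ≤ eC n d k ^ 2) {c : ℝ} (hc1 : 1 ≤ c) (hc2 : 2 ≤ c)
    (hc3 : (d : ℝ) + 25 ≤ c) (hc4 : 5 * (d : ℝ) ^ 2 + 1 ≤ c) (hc5 : 3 * (d : ℝ) ^ 2 + 1 ≤ c) :
    ∑ p ∈ A, (A4c n d (k + 1) (upd Z p.1 p.2) - A4c n d k Z) ≤ KC4 c * rT n d k := by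
  have R := rg3 hσ hk2 hk
  have hN : 0 < Nk n d k := lt_of_le_of_lt (by positivity) (Nk_gt3 hk)
  have hN2 : 2 ≤ Nk n d k := by
    have h1 := const_mul_pow_le (c := 2) (sR_one hσ) (by linarith [sR_ge hσ])
      (show 0 < 680 by norm_num)
    rw [pow_zero, mul_one] at h1
    exact h1.trans (Nk_gt3 hk).le
  obtain ⟨hm, hm1, -⟩ := mu_facts hd
  have pos : ∀ y1 y2 : ℤ, 0 ≤ Asm.Em (LL n) (XX n d k) 680 699 y1 y2 :=
    fun y1 y2 => (Em_pos _ _ _ _ _ _).le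
  have eC0 : (sR n : ℝ) ^ 2004 = Asm.Em (LL n) (XX n d k) 680 699 8016 8016 := by
    rw [sR_pow_Em hσ (X := XX n d k) (xl := 680) (xh := 699) (by norm_num) 2004]; norm_num
  have e384 : (sR n : ℝ) ^ 384 = Asm.Em (LL n) (XX n d k) 680 699 1536 1536 := by
    rw [sR_pow_Em hσ (X := XX n d k) (xl := 680) (xh := 699) (by norm_num) 384]; norm_num
  have e1000 : (sR n : ℝ) ^ 1000 = Asm.Em (LL n) (XX n d k) 680 699 4000 4000 := by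
    rw [sR_pow_Em hσ (X := XX n d k) (xl := 680) (xh := 699) (by norm_num) 1000]; norm_num
  obtain ⟨t1, t1'⟩ := T1_abs hσ hN hε h
  have t3' := T3_abs hd hσ hk2 hε h
  have b3 : sC n d k ≤ c * Asm.Em (LL n) (XX n d k) 680 699 232 232 := by
    rw [sC_Em]
    exact (Em_le R (show (208 : ℤ) ≤ 232 by norm_num) (show (208 : ℤ) ≤ 232 by norm_num)).trans
      (le_mul_of_one_le hc1 (pos _ _))
  have key := rate_A4_core R hc1 (R3.ctlC h) h.sg hm.le hm1.le hε hA hadm (eC_nonneg n d k) hE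
    hcard hN2 t1 t1' h.T2_le t3' (by rw [bC_Em]; exact le_mul_of_one_le hc1 (pos _ _))
    (tC_Em.trans (mul_le_mul_of_nonneg_right hc2 (pos _ _))) b3
    (by rw [vC_Em]; exact le_mul_of_one_le hc1 (pos _ _))
    (by rw [wC_Em]; exact le_mul_of_one_le hc1 (pos _ _))
    (by rw [eC_Em]; exact mul_le_mul_of_nonneg_right hc3 (pos _ _))
    (by rw [e384]; exact mul_le_mul_of_nonneg_right hc4 (pos _ _))
    (by rw [e1000]; exact mul_le_mul_of_nonneg_right hc5 (pos _ _)) (Nk_Em hN)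
    ((T4_Em hσ hN h).trans (le_mul_of_one_le hc1 (pos _ _))) eC0
  rw [rT_Em]
  refine le_trans (le_of_eq ?_) key
  refine Finset.sum_congr rfl fun p _ => ?_
  unfold A4c
  rw [Nk_succ]

/-- **the rate lemma of `A4c`** (`T₄` in phase IIIa) -/
theorem rate_A4 (d : ℕ) (_hd : 3 ≤ d) : ∃ C : ℝ, ∃ s0 : ℕ, ∀ (ι : Type*) [Fintype ι]
    [DecidableEq ι] (n k : ℕ) (F : Finset ι) (Zp Zm : Matrix ι ι ℝ) (forb : ι → ι → Prop),
    s0 ≤ sR n → EnvC n d k F Zp Zm forb → ∀ (ε : ℝ) (Z : Matrix ι ι ℝ), Sgn Zp Zm ε Z →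
      ∑ p ∈ adm F forb Zp Zm, (A4c n d (k + 1) (upd Z p.1 p.2) - A4c n d k Z) ≤
        C * rT n d k := by
  have hd0 : (0 : ℝ) ≤ d := Nat.cast_nonneg d
  refine ⟨KC4 (5 * (d : ℝ) ^ 2 + d + 30), 2000, ?_⟩
  intro ι _ _ n k F Zp Zm forb hσ h ε Z hs
  have h1 : ε = 1 ∨ ε = -1 := by
    rcases hs with ⟨rfl, rfl⟩ | ⟨rfl, rfl⟩
    · exact Or.inl rfl
    · exact Or.inr rfl
  have h2 : OneC n d k ε F Z := by
    rcases hs with ⟨rfl, rfl⟩ | ⟨rfl, rfl⟩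
    · exact h.p
    · exact h.m
  have h0 : (0 : ℝ) ≤ (d : ℝ) ^ 2 := sq_nonneg _
  exact rate_A4_one h.d3 hσ h.k_ge h.k_lt h.card h1 h2 (adm_subset F forb Zp Zm)
    (adm_ok Zp Zm hs) (R3.card_compl_le3 h (by omega)) (by linarith) (by linarith) (by linarith)
    (by linarith) (by linarith)

end Vale.Agent.P049.TS.R902
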