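import Vale.Agent.P049.TS.T34.Drift34
import Vale.Agent.P049.TS.Asm.Square
import Vale.Agent.P049.TS.Shell.Sign

/-!
Rate of the potential `T₄ N / c` with uniform weights when `ε T₁ ≤ 0` and `T₂ ≤ N`
(phase IIIa), abstract form (no exponents).
-/

set_option linter.unusedSectionVars false

namespace Vale.Agent.P049.TS.R902

open Matrix Finset T34

variable {ι : Type*} [Fintype ι] [DecidableEq ι]
variable {Z : Matrix ι ι ℝ} {F : Finset ι} {A : Finset (ι × ι)} {b t s v w x a1 e : ℝ}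

/-- the main part of the drift of `T₄` -/
noncomputable def main4 (Z : Matrix ι ι ℝ) (N : ℝ) : ℝ :=
  8 * (Z.trace * ((Z ^ 5).trace - (Z ^ 3).trace)) +
    8 * (((Z ^ 2).trace - N) * ((Z ^ 4).trace - (Z ^ 2).trace)) +
    4 * ((Z ^ 3).trace - Z.trace) ^ 2

/-- uniform weights: `Σ_A (T₄' - T₄) ≤ main4 + err4` -/
theorem sum_T4_le (c : Ct F Z b t s v w x a1) (hA : A ⊆ F ×ˢ F)
    (hadm : ∀ p ∈ A, p.1 ≠ p.2 ∧ PairOK Z p.1 p.2) (he : 0 ≤ e)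
    (hE : (((F ×ˢ F) \ A).card : ℝ) ≤ e ^ 2) :
    ∑ p ∈ A, ((upd Z p.1 p.2 ^ 4).trace - (Z ^ 4).trace) ≤
      main4 Z F.card + err4 b t s v w x a1 e 0 := by
  have h1 := c.T4_mean (h := fun _ _ => 0) (e := e) (H := 0) hA hadm
    (fun p _ => by norm_num) he le_rfl hE (by simp)
  simp only [sub_zero, one_mul, zero_mul, Finset.sum_const_zero, mul_zero, add_zero] at h1
  have h2 := (abs_le.1 h1).2
  rw [Finset.sum_add_distrib, Finset.sum_const, nsmul_eq_mul] at h2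
  have h3 : (0 : ℝ) ≤ A.card := Nat.cast_nonneg _
  unfold main4
  linarith

/-- bound for the main part when `ε T₁ ≤ 0` and `T₂ ≤ N` -/
theorem main4_le {m eps N κ1 κ3 : ℝ} (hs : Sg F Z m eps) (hm : 0 ≤ m)
    (heps : eps = 1 ∨ eps = -1) (h1 : eps * Z.trace ≤ 0) (h1' : |Z.trace| ≤ κ1)
    (h2 : (Z ^ 2).trace ≤ N) (h3 : |(Z ^ 3).trace| ≤ κ3) :
    main4 Z N ≤ 8 * (κ1 * (m * (Z ^ 4).trace + 1)) + 8 * (κ1 * κ3) + 8 * N ^ 2 +
      4 * (κ1 + κ3) ^ 2 := by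
  have hZ := hs.symm
  have t2 : 0 ≤ (Z ^ 2).trace := by
    have := Mat.trace_pow_even_nonneg hZ 1
    simpa using this
  have t4 : 0 ≤ (Z ^ 4).trace := by
    have := Mat.trace_pow_even_nonneg hZ 2
    simpa using this
  have hκ1 : 0 ≤ κ1 := (abs_nonneg _).trans h1'
  have hκ3 : 0 ≤ κ3 := (abs_nonneg _).trans h3
  have hsq : eps * eps = 1 := by rcases heps with rfl | rfl <;> norm_num
  have he1 : -1 ≤ eps := by rcases heps with rfl | rfl <;> norm_num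
  have g1 := hs.trace_odd 1
  norm_num at g1
  have g2 : -(eps * Z.trace) ≤ κ1 := by
    have : |eps * Z.trace| = |Z.trace| := by
      rw [abs_mul]
      rcases heps with rfl | rfl <;> norm_num
    have := neg_abs_le (eps * Z.trace)
    linarith
  -- `8 T₁ T₅`
  have a1 : Z.trace * (Z ^ 5).trace ≤ κ1 * (m * (Z ^ 4).trace + 1) := by
    have e1 : Z.trace * (Z ^ 5).trace = (-(eps * Z.trace)) * (-(eps * (Z ^ 5).trace)) := by
      linear_combination (-(Z.trace * (Z ^ 5).trace)) * hsq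
    rw [e1]
    have g3 : -(eps * (Z ^ 5).trace) ≤ m * (Z ^ 4).trace + 1 := by linarith
    have g4 : 0 ≤ m * (Z ^ 4).trace + 1 := by positivity
    calc (-(eps * Z.trace)) * (-(eps * (Z ^ 5).trace))
        ≤ (-(eps * Z.trace)) * (m * (Z ^ 4).trace + 1) :=
          mul_le_mul_of_nonneg_left g3 (by linarith)
      _ ≤ _ := mul_le_mul_of_nonneg_right g2 g4
  -- `8 T₁ T₃`
  have a2 : -(Z.trace * (Z ^ 3).trace) ≤ κ1 * κ3 := by
    refine (neg_le_abs _).trans ?_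
    rw [abs_mul]
    exact mul_le_mul h1' h3 (abs_nonneg _) hκ1
  -- `8 D (T₄ - T₂)`
  have a3 : ((Z ^ 2).trace - N) * ((Z ^ 4).trace - (Z ^ 2).trace) ≤ N ^ 2 := by
    have g5 : 0 ≤ (N - (Z ^ 2).trace) * (Z ^ 4).trace := mul_nonneg (by linarith) t4
    have g6 : (N - (Z ^ 2).trace) * (Z ^ 2).trace ≤ N ^ 2 := by nlinarith
    linarith
  -- `4 (T₃ - T₁)²`
  have a4 : ((Z ^ 3).trace - Z.trace) ^ 2 ≤ (κ1 + κ3) ^ 2 := by
    have g7 : |(Z ^ 3).trace - Z.trace| ≤ κ1 + κ3 := by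
      refine (abs_sub _ _).trans ?_
      linarith
    rw [← sq_abs]
    exact pow_le_pow_left₀ (abs_nonneg _) g7 2
  unfold main4
  linarith

/-- **rate of `T₄ N / c`**, uniform weights, abstract form -/
theorem rate_T4_abs {m eps N κ1 κ3 C0 : ℝ} (c : Ct F Z b t s v w x a1) (hs : Sg F Z m eps)
    (hm : 0 ≤ m) (heps : eps = 1 ∨ eps = -1) (hA : A ⊆ F ×ˢ F)
    (hadm : ∀ p ∈ A, p.1 ≠ p.2 ∧ PairOK Z p.1 p.2) (he : 0 ≤ e)
    (hE : (((F ×ˢ F) \ A).card : ℝ) ≤ e ^ 2) (hN : (F.card : ℝ) = N) (hN2 : 2 ≤ N)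
    (hC0 : 0 < C0) (h1 : eps * Z.trace ≤ 0) (h1' : |Z.trace| ≤ κ1)
    (h2 : (Z ^ 2).trace ≤ N) (h3 : |(Z ^ 3).trace| ≤ κ3) (herr : 0 ≤ err4 b t s v w x a1 e 0) :
    ∑ p ∈ A, ((upd Z p.1 p.2 ^ 4).trace * (N - 2) / C0 - (Z ^ 4).trace * N / C0) ≤
      N / C0 * (8 * (κ1 * (m * (Z ^ 4).trace + 1)) + 8 * (κ1 * κ3) + 8 * N ^ 2 +
        4 * (κ1 + κ3) ^ 2 + err4 b t s v w x a1 e 0) := by
  have k1 := sum_T4_le c hA hadm he hE
  have k2 := main4_le hs hm heps h1 h1' (hN ▸ h2 : (Z ^ 2).trace ≤ F.card) h3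
  rw [hN] at k1 k2
  have t4 : 0 ≤ (Z ^ 4).trace := by
    have := Mat.trace_pow_even_nonneg hs.symm 2
    simpa using this
  have hκ1 : 0 ≤ κ1 := (abs_nonneg _).trans h1'
  have hκ3 : 0 ≤ κ3 := (abs_nonneg _).trans h3
  set M := 8 * (κ1 * (m * (Z ^ 4).trace + 1)) + 8 * (κ1 * κ3) + 8 * N ^ 2 +
        4 * (κ1 + κ3) ^ 2 + err4 b t s v w x a1 e 0 with hM
  have hM0 : 0 ≤ M := by positivity
  have k3 : ∑ p ∈ A, (1 : ℝ) * ((upd Z p.1 p.2 ^ 4).trace - (Z ^ 4).trace) ≤ M := by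
    simp only [one_mul]
    linarith
  have k4 := Asm.lin_rate_mulN A (fun _ => (1 : ℝ)) (fun p => (upd Z p.1 p.2 ^ 4).trace)
    (c := C0) hC0 hN2 k3
  simp only [one_mul] at k4
  refine k4.trans ?_
  have k5 : 0 ≤ 2 * (Z ^ 4).trace / C0 * ∑ _p ∈ A, (1 : ℝ) := by positivity
  have k6 : (N - 2) * M / C0 ≤ N / C0 * M := by
    rw [div_mul_eq_mul_div]
    apply div_le_div_of_nonneg_right _ hC0.le
    nlinarith
  linarith

end Vale.Agent.P049.TS.R902
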