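import Vale.Agent.P049.TS.T34.RateAux

/-!
The exponent check for the rate of `T₄ N / σ^2004` in phase IIIa (`σ^680 ≤ N ≤ σ^699`).
-/

namespace Vale.Agent.P049.TS.R902

open Vale.Agent.P049.TS.Asm Vale.Agent.P049.TS.T34

/-- `b t s v w x a1 e H κ₁ κ₃ N T₄` -/
def env4 (b t s v w x a1 e H κ1 κ3 N T4 : ℝ) : ℕ → ℝ
  | 0 => b | 1 => t | 2 => s | 3 => v | 4 => w | 5 => x | 6 => a1 | 7 => e | 8 => H | 9 => κ1
  | 10 => κ3 | 11 => N | 12 => T4 | _ => 0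

def env4z (b t s v w x a1 e H κ1 κ3 N T4 : ℤ) : ℕ → ℤ
  | 0 => b | 1 => t | 2 => s | 3 => v | 4 => w | 5 => x | 6 => a1 | 7 => e | 8 => H | 9 => κ1
  | 10 => κ3 | 11 => N | 12 => T4 | _ => 0

/-- twice the whole bracket -/
abbrev eA4 : Ex :=
  2 * (8 * (.v 9 * (.v 12 + 1)) + 8 * (.v 9 * .v 10) + 8 * (.v 11) ^ 2 +
    4 * (.v 9 + .v 10) ^ 2) + e4

theorem eA4_ev (b t s v w x a1 e H κ1 κ3 N T4 : ℝ) :
    2 * (8 * (κ1 * (T4 + 1)) + 8 * (κ1 * κ3) + 8 * N ^ 2 + 4 * (κ1 + κ3) ^ 2 +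
      err4 b t s v w x a1 e H) = eA4.ev (env4 b t s v w x a1 e H κ1 κ3 N T4) := by
  have h := err4_ev b t s v w x a1 e H
  have h2 : e4.ev (envv b t s v w x a1 e H) = e4.ev (env4 b t s v w x a1 e H κ1 κ3 N T4) := by
    simp only [e4, err4E, QbE, Ex.ev_add, Ex.ev_mul, Ex.ev_pow, Ex.ev_ofNat, Ex.ev_v, envv, env4]
  rw [h2] at h
  rw [mul_add 2 _ (err4 _ _ _ _ _ _ _ _ _), h]
  simp only [eA4, Ex.ev_add, Ex.ev_mul, Ex.ev_pow, Ex.ev_ofNat, Ex.ev_v, env4]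
  push_cast
  ring

/-- exponents (times 4) at `N = σ^680` and `N = σ^699` -/
def zC1 : ℕ → ℤ := env4z 1325 1360 232 1402 1400 2650 2726 1360 0 1536 4000 2720 5296
def zC2 : ℕ → ℤ := env4z 1306 1398 232 1402 1400 2612 2707 1398 0 1536 4000 2796 5220

theorem eA4_z1 : eA4.y zC1 ≤ 8012 := by decide
theorem eA4_z2 : eA4.y zC2 ≤ 8012 := by decide

/-- the constant of the rate -/
noncomputable def KA4 (c : ℝ) : ℝ := eA4.cs (fun _ => c) / 2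

theorem cs_nonneg {κ : ℕ → ℝ} (h : ∀ i, 0 ≤ κ i) : ∀ e : Ex, 0 ≤ e.cs κ
  | .v i => h i
  | .c n => Nat.cast_nonneg n
  | .add a b => add_nonneg (cs_nonneg h a) (cs_nonneg h b)
  | .mul a b => mul_nonneg (cs_nonneg h a) (cs_nonneg h b)
  | .pow a n => pow_nonneg (cs_nonneg h a) n

theorem KA4_nonneg {c : ℝ} (hc : 0 ≤ c) : 0 ≤ KA4 c :=
  div_nonneg (cs_nonneg (fun _ => hc) _) (by norm_num)

theorem A4_num {L X c : ℝ} (R : Rg L X 680 699) (hc : 0 ≤ c)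
    {b t s v w x a1 e N κ1 κ3 T4 C0 : ℝ}
    (b0 : 0 ≤ b) (hb : b ≤ c * Asm.Em L X 680 699 1325 1306)
    (t0 : 0 ≤ t) (ht : t ≤ c * Asm.Em L X 680 699 1360 1398)
    (s0 : 0 ≤ s) (hs : s ≤ c * Asm.Em L X 680 699 232 232)
    (v0 : 0 ≤ v) (hv : v ≤ c * Asm.Em L X 680 699 1402 1402)
    (w0 : 0 ≤ w) (hw : w ≤ c * Asm.Em L X 680 699 1400 1400)
    (x0 : 0 ≤ x) (hx : x ≤ c * Asm.Em L X 680 699 2650 2612)
    (a0 : 0 ≤ a1) (ha : a1 ≤ c * Asm.Em L X 680 699 2726 2707)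
    (e0 : 0 ≤ e) (he : e ≤ c * Asm.Em L X 680 699 1360 1398)
    (k0 : 0 ≤ κ1) (hk : κ1 ≤ c * Asm.Em L X 680 699 1536 1536)
    (l0 : 0 ≤ κ3) (hl : κ3 ≤ c * Asm.Em L X 680 699 4000 4000)
    (n0 : 0 ≤ N) (hn : N = Asm.Em L X 680 699 2720 2796) (hn' : N ≤ c * Asm.Em L X 680 699 2720 2796)
    (q0 : 0 ≤ T4) (hq : T4 ≤ c * Asm.Em L X 680 699 5296 5220)
    (hC : C0 = Asm.Em L X 680 699 8016 8016) :
    0 ≤ err4 b t s v w x a1 e 0 ∧
    N / C0 * (8 * (κ1 * (T4 + 1)) + 8 * (κ1 * κ3) + 8 * N ^ 2 + 4 * (κ1 + κ3) ^ 2 +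
      err4 b t s v w x a1 e 0) ≤ KA4 c * Asm.Em L X 680 699 2716 2792 := by
  have hz : (0 : ℝ) ≤ c * Asm.Em L X 680 699 0 0 := by rw [Em_zero, mul_one]; exact hc
  set ρ := env4 b t s v w x a1 e 0 κ1 κ3 N T4 with hρd
  have hρ : ∀ i, 0 ≤ ρ i := by
    intro i
    match i with
    | 0 => exact b0
    | 1 => exact t0
    | 2 => exact s0
    | 3 => exact v0
    | 4 => exact w0
    | 5 => exact x0
    | 6 => exact a0
    | 7 => exact e0
    | 8 => exact le_rfl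
    | 9 => exact k0
    | 10 => exact l0
    | 11 => exact n0
    | 12 => exact q0
    | (_ + 13) => exact le_rfl
  have hb' : ∀ i, ρ i ≤ (fun _ => c) i * Asm.Em L X 680 699 (zC1 i) (zC2 i) := by
    intro i
    match i with
    | 0 => exact hb
    | 1 => exact ht
    | 2 => exact hs
    | 3 => exact hv
    | 4 => exact hw
    | 5 => exact hx
    | 6 => exact ha
    | 7 => exact he
    | 8 => exact hz
    | 9 => exact hk
    | 10 => exact hl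
    | 11 => exact hn'
    | 12 => exact hq
    | (_ + 13) => exact hz
  have h1 := Ex.bound eA4 R (ρ := ρ) (κ := fun _ => c) zC1 zC2 eA4_z1 eA4_z2 hρ
    (fun _ => hc) hb'
  rw [← eA4_ev] at h1
  have h0 : 0 ≤ e4.ev ρ := Ex.ev_nonneg hρ _
  have h2 : e4.ev ρ = 2 * err4 b t s v w x a1 e 0 := by
    rw [err4_ev]
    simp only [e4, err4E, QbE, Ex.ev_add, Ex.ev_mul, Ex.ev_pow, Ex.ev_ofNat, Ex.ev_v, envv, env4,
      hρd]
  refine ⟨by linarith, ?_⟩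
  set E := 8 * (κ1 * (T4 + 1)) + 8 * (κ1 * κ3) + 8 * N ^ 2 + 4 * (κ1 + κ3) ^ 2 +
      err4 b t s v w x a1 e 0 with hE
  have h3 : E ≤ KA4 c * Asm.Em L X 680 699 8012 8012 := by
    unfold KA4
    linarith
  have h4 : 0 ≤ N / C0 := by
    rw [hC]
    exact div_nonneg n0 (Em_pos _ _ _ _ _ _).le
  calc N / C0 * E ≤ N / C0 * (KA4 c * Asm.Em L X 680 699 8012 8012) :=
        mul_le_mul_of_nonneg_left h3 h4
    _ = KA4 c * Asm.Em L X 680 699 2716 2792 := by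
        rw [hn, hC]
        have e1 : Asm.Em L X 680 699 2720 2796 * Asm.Em L X 680 699 8012 8012 =
            Asm.Em L X 680 699 2716 2792 * Asm.Em L X 680 699 8016 8016 := by
          rw [Em_mul, Em_mul]
          norm_num
        have e2 := (Em_pos L X 680 699 8016 8016).ne'
        rw [div_mul_eq_mul_div, div_eq_iff e2]
        linear_combination KA4 c * e1

end Vale.Agent.P049.TS.R902
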