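import Vale.Agent.P049.TS.R902.A4abs
import Vale.Agent.P049.TS.R902.A4num

/-!
The rate of `T₄ N / σ^2004` in phase IIIa from bounds of all parameters.
-/

set_option linter.unusedSectionVars false

namespace Vale.Agent.P049.TS.R902

open Matrix Finset Vale.Agent.P049.TS.Asm T34

/-- `2 (b⁴ + v b² w) + 2 s²` -/
abbrev ea1 : Ex := 2 * ((.v 0) ^ 4 + .v 3 * ((.v 0) ^ 2 * .v 4)) + 2 * (.v 2) ^ 2

theorem ea1_z1 : ea1.y zC1 ≤ 5452 := by decide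
theorem ea1_z2 : ea1.y zC2 ≤ 5414 := by decide

/-- constant of `a1` -/
noncomputable def Ka1 (c : ℝ) : ℝ := ea1.cs (fun _ => c) + 1

theorem Ka1_nonneg {c : ℝ} (hc : 0 ≤ c) : 0 ≤ Ka1 c :=
  add_nonneg (cs_nonneg (fun _ => hc) _) zero_le_one

/-- the choice of the parameter `a1` and its size -/
theorem exists_a1 {L X c : ℝ} (R : Rg L X 680 699) (hc : 0 ≤ c) {b s v w : ℝ}
    (b0 : 0 ≤ b) (hb : b ≤ c * Asm.Em L X 680 699 1325 1306)
    (s0 : 0 ≤ s) (hs : s ≤ c * Asm.Em L X 680 699 232 232)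
    (v0 : 0 ≤ v) (hv : v ≤ c * Asm.Em L X 680 699 1402 1402)
    (w0 : 0 ≤ w) (hw : w ≤ c * Asm.Em L X 680 699 1400 1400) :
    ∃ a1 : ℝ, 0 ≤ a1 ∧ 2 * (b ^ 4 + v * (b ^ 2 * w)) + 2 * s ^ 2 ≤ a1 ^ 2 ∧
      a1 ≤ Ka1 c * Asm.Em L X 680 699 2726 2707 := by
  have hz : (0 : ℝ) ≤ c * Asm.Em L X 680 699 0 0 := by rw [Em_zero, mul_one]; exact hc
  have hz' : ∀ y1 y2 : ℤ, (0 : ℝ) ≤ c * Asm.Em L X 680 699 y1 y2 := fun y1 y2 =>
    mul_nonneg hc (Em_pos _ _ _ _ _ _).le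
  set ρ := env4 b 0 s v w 0 0 0 0 0 0 0 0 with hρd
  have hρ : ∀ i, 0 ≤ ρ i := by
    intro i
    match i with
    | 0 => exact b0
    | 1 => exact le_rfl
    | 2 => exact s0
    | 3 => exact v0
    | 4 => exact w0
    | 5 => exact le_rfl
    | 6 => exact le_rfl
    | 7 => exact le_rfl
    | 8 => exact le_rfl
    | 9 => exact le_rfl
    | 10 => exact le_rfl
    | 11 => exact le_rfl
    | 12 => exact le_rfl
    | (_ + 13) => exact le_rfl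
  have hb' : ∀ i, ρ i ≤ (fun _ => c) i * Asm.Em L X 680 699 (zC1 i) (zC2 i) := by
    intro i
    match i with
    | 0 => exact hb
    | 1 => exact hz' _ _
    | 2 => exact hs
    | 3 => exact hv
    | 4 => exact hw
    | 5 => exact hz' _ _
    | 6 => exact hz' _ _
    | 7 => exact hz' _ _
    | 8 => exact hz' _ _
    | 9 => exact hz' _ _
    | 10 => exact hz' _ _
    | 11 => exact hz' _ _
    | 12 => exact hz' _ _
    | (_ + 13) => exact hz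
  have h1 := Ex.bound ea1 R (ρ := ρ) (κ := fun _ => c) zC1 zC2 ea1_z1 ea1_z2 hρ
    (fun _ => hc) hb'
  have h2 : ea1.ev ρ = 2 * (b ^ 4 + v * (b ^ 2 * w)) + 2 * s ^ 2 := by
    simp only [ea1, Ex.ev_add, Ex.ev_mul, Ex.ev_pow, Ex.ev_ofNat, Ex.ev_v, env4, hρd]
    push_cast
    ring
  rw [h2] at h1
  set Q := 2 * (b ^ 4 + v * (b ^ 2 * w)) + 2 * s ^ 2 with hQ
  have hQ0 : 0 ≤ Q := by positivity
  have hK0 : 0 ≤ ea1.cs (fun _ => c) := cs_nonneg (fun _ => hc) _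
  refine ⟨√Q, Real.sqrt_nonneg _, (Real.sq_sqrt hQ0).ge, ?_⟩
  have hE := (Em_pos L X 680 699 2726 2707).le
  unfold Ka1
  generalize ea1.cs (fun _ => c) = K at *
  apply Real.sqrt_le_iff.2
  refine ⟨by positivity, h1.trans ?_⟩
  have e1 : Asm.Em L X 680 699 5452 5414 = Asm.Em L X 680 699 2726 2707 ^ 2 := by
    rw [Em_pow]; norm_num
  rw [e1, mul_pow]
  apply mul_le_mul_of_nonneg_right _ (by positivity)
  nlinarith

variable {ι : Type*} [Fintype ι] [DecidableEq ι]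
variable {Z : Matrix ι ι ℝ} {F : Finset ι} {A : Finset (ι × ι)} {b t s v w e : ℝ}

/-- the constant in the rate of `T₄` in phase IIIa, as a function of the constants in the bounds
of the parameters -/
noncomputable def KC4 (c : ℝ) : ℝ := KA4 (c + c ^ 2 + Ka1 c)

theorem KC4_nonneg {c : ℝ} (hc : 0 ≤ c) : 0 ≤ KC4 c := by
  have := Ka1_nonneg hc
  exact KA4_nonneg (by positivity)

/-- **rate of `T₄ N / σ^2004` in phase IIIa**, from bounds of all parameters -/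
theorem rate_A4_core {L X c m eps N κ1 κ3 C0 : ℝ} (R : Rg L X 680 699) (hc : 1 ≤ c)
    (ctl : D12.Ctl F Z b t s v w) (hs : Sg F Z m eps) (hm : 0 ≤ m) (hm1 : m ≤ 1)
    (heps : eps = 1 ∨ eps = -1) (hA : A ⊆ F ×ˢ F)
    (hadm : ∀ p ∈ A, p.1 ≠ p.2 ∧ PairOK Z p.1 p.2) (he : 0 ≤ e)
    (hE : (((F ×ˢ F) \ A).card : ℝ) ≤ e ^ 2) (hN : (F.card : ℝ) = N) (hN2 : 2 ≤ N)
    (h1 : eps * Z.trace ≤ 0) (h1' : |Z.trace| ≤ κ1)
    (h2 : (Z ^ 2).trace ≤ N) (h3 : |(Z ^ 3).trace| ≤ κ3)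
    (hb : b ≤ c * Asm.Em L X 680 699 1325 1306)
    (ht : t ≤ c * Asm.Em L X 680 699 1360 1398)
    (hs' : s ≤ c * Asm.Em L X 680 699 232 232)
    (hv : v ≤ c * Asm.Em L X 680 699 1402 1402)
    (hw : w ≤ c * Asm.Em L X 680 699 1400 1400)
    (he' : e ≤ c * Asm.Em L X 680 699 1360 1398)
    (hk : κ1 ≤ c * Asm.Em L X 680 699 1536 1536)
    (hl : κ3 ≤ c * Asm.Em L X 680 699 4000 4000)
    (hn : N = Asm.Em L X 680 699 2720 2796)
    (hq : (Z ^ 4).trace ≤ c * Asm.Em L X 680 699 5296 5220)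
    (hC : C0 = Asm.Em L X 680 699 8016 8016) :
    ∑ p ∈ A, ((upd Z p.1 p.2 ^ 4).trace * (N - 2) / C0 - (Z ^ 4).trace * N / C0) ≤
      KC4 c * Asm.Em L X 680 699 2716 2792 := by
  have hc0 : 0 ≤ c := by linarith
  obtain ⟨a1, a0, ha, ha'⟩ := exists_a1 R hc0 ctl.b0 hb ctl.s0 hs' ctl.v0 hv ctl.w0 hw
  have ct := Ctl.ct ctl a0 ha
  have hK1 : 0 ≤ Ka1 c := Ka1_nonneg hc0
  have c20 : 0 ≤ c ^ 2 := sq_nonneg c
  unfold KC4
  obtain ⟨K, hK⟩ : ∃ K, K = c + c ^ 2 + Ka1 c := ⟨_, rfl⟩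
  rw [← hK]
  have cK : c ≤ K := by rw [hK]; linarith
  have c2K : c ^ 2 ≤ K := by rw [hK]; linarith
  have c3K : Ka1 c ≤ K := by rw [hK]; linarith
  have hK0 : 0 ≤ K := by linarith
  have up : ∀ {y r : ℝ} {y1 y2 : ℤ}, r ≤ K → y ≤ r * Asm.Em L X 680 699 y1 y2 →
      y ≤ K * Asm.Em L X 680 699 y1 y2 := fun hr hy =>
    hy.trans (mul_le_mul_of_nonneg_right hr (Em_pos _ _ _ _ _ _).le)
  have t4 : 0 ≤ (Z ^ 4).trace := by
    have := Mat.trace_pow_even_nonneg hs.symm 2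
    simpa using this
  have hκ1 : 0 ≤ κ1 := (abs_nonneg _).trans h1'
  have hκ3 : 0 ≤ κ3 := (abs_nonneg _).trans h3
  have hx : b ^ 2 ≤ c ^ 2 * Asm.Em L X 680 699 2650 2612 := by
    have e1 : Asm.Em L X 680 699 2650 2612 = Asm.Em L X 680 699 1325 1306 ^ 2 := by
      rw [Em_pow]; norm_num
    rw [e1, ← mul_pow]
    exact pow_le_pow_left₀ ctl.b0 hb 2
  have hn' : N ≤ c * Asm.Em L X 680 699 2720 2796 := by
    rw [hn]
    nlinarith [(Em_pos L X 680 699 2720 2796).le]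
  obtain ⟨n1, n2⟩ := A4_num R hK0 ctl.b0 (up cK hb) ctl.t0 (up cK ht) ctl.s0 (up cK hs') ctl.v0
    (up cK hv) ctl.w0 (up cK hw) (sq_nonneg b) (up c2K hx) a0 (up c3K ha') he (up cK he')
    hκ1 (up cK hk) hκ3 (up cK hl) (by linarith : 0 ≤ N) hn (up cK hn') t4 (up cK hq) hC
  have hC0 : 0 < C0 := by rw [hC]; exact Em_pos _ _ _ _ _ _
  have k1 := rate_T4_abs ct hs hm heps hA hadm he hE hN hN2 hC0 h1 h1' h2 h3 n1
  refine k1.trans (le_trans ?_ n2)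
  have hNC : 0 ≤ N / C0 := div_nonneg (by linarith) hC0.le
  apply mul_le_mul_of_nonneg_left _ hNC
  have k2 : m * (Z ^ 4).trace ≤ (Z ^ 4).trace := by nlinarith
  have k3 : κ1 * (m * (Z ^ 4).trace + 1) ≤ κ1 * ((Z ^ 4).trace + 1) :=
    mul_le_mul_of_nonneg_left (by linarith) hκ1
  linarith

end Vale.Agent.P049.TS.R902
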